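import Mathlib

namespace Vale.Agent.Lib.P057R4

open Finset

/-- A set of naturals without a four-term progression of positive difference. -/
def FourFree (A : Finset ℕ) : Prop := ∀ a d : ℕ, 0 < d → ¬ ∀ i < 4, a + i * d ∈ A

/-- The combinatorial core: coprime moduli, digit sets with a certificate function. -/
theorem core {n : ℕ} (m : Fin n → ℕ) [∀ j, NeZero (m j)]
    (hcop : Pairwise (Function.onFun Nat.Coprime m))
    (T : ∀ j, Finset (ZMod (m j))) (F : ∀ j, ZMod (m j) → ℤ) (R : ℕ)
    (hR : ∀ j, ∀ z ∈ T j, |F j z| ≤ R)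
    (hcert : ∀ j, ∀ a b : ZMod (m j), a ∈ T j → a + b ∈ T j → a + 2 * b ∈ T j → a + 3 * b ∈ T j →
      0 ≤ F j a + F j (a + 3 * b) - F j (a + b) - F j (a + 2 * b) ∧
      (F j a + F j (a + 3 * b) - F j (a + b) - F j (a + 2 * b) = 0 → b = 0)) :
    ∃ A : Finset ℕ, (∀ x ∈ A, x < ∏ j, m j) ∧ FourFree A ∧
      ((∏ j, ((T j).card : ℝ)) / (2 * n * R + 1)) ≤ A.card := by
  classical
  set M : ℕ := ∏ j, m j with hM
  have hM0 : 0 < M := Finset.prod_pos (fun j _ => NeZero.pos (m j))
  have : NeZero M := ⟨hM0.ne'⟩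
  let φ : ZMod M ≃+* ∀ j, ZMod (m j) := ZMod.prodEquivPi m hcop
  set S : Finset (∀ j, ZMod (m j)) := Fintype.piFinset T with hS
  have hScard : (S.card : ℝ) = ∏ j, ((T j).card : ℝ) := by
    rw [hS, Fintype.card_piFinset]
    push_cast
    rfl
  -- the level function
  set Φ : (∀ j, ZMod (m j)) → ℤ := fun z => ∑ j, F j (z j) with hΦ
  have hΦb : ∀ z ∈ S, Φ z + (n * R : ℕ) ∈ Finset.Icc (0 : ℤ) ((2 * n * R : ℕ) : ℤ) := by
    intro z hz
    have hz' := Fintype.mem_piFinset.1 hz
    have h1 : |Φ z| ≤ ∑ _j : Fin n, (R : ℤ) := by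
      refine (Finset.abs_sum_le_sum_abs _ _).trans (Finset.sum_le_sum fun j _ => ?_)
      exact hR j _ (hz' j)
    simp only [sum_const, card_univ, Fintype.card_fin, nsmul_eq_mul] at h1
    rw [abs_le] at h1
    rw [Finset.mem_Icc]
    push_cast
    constructor <;> nlinarith [h1.1, h1.2]
  -- pigeonhole
  have hne : (Finset.Icc (0 : ℤ) ((2 * n * R : ℕ) : ℤ)).Nonempty :=
    ⟨0, Finset.mem_Icc.2 ⟨le_rfl, by positivity⟩⟩
  have hcardI : ((Finset.Icc (0 : ℤ) ((2 * n * R : ℕ) : ℤ)).card : ℝ) = 2 * n * R + 1 := by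
    rw [Int.card_Icc]
    have : (((2 * n * R : ℕ) : ℤ) + 1 - 0).toNat = 2 * n * R + 1 := by
      omega
    rw [this]
    push_cast
    ring
  have hpos : (0 : ℝ) < 2 * n * R + 1 := by positivity
  obtain ⟨r, -, hr⟩ := Finset.exists_le_card_fiber_of_nsmul_le_card_of_maps_to
    (b := (S.card : ℝ) / (2 * n * R + 1)) (f := fun z => Φ z + (n * R : ℕ)) hΦb hne (by
      rw [nsmul_eq_mul, hcardI]
      field_simp
      exact le_refl _)
  set P := S.filter (fun z => Φ z + (n * R : ℕ) = r) with hP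
  set g : (∀ j, ZMod (m j)) → ℕ := fun z => (φ.symm z).val with hg
  have hginj : Function.Injective g := by
    intro z z' h
    have h1 := ZMod.val_injective M h
    exact φ.symm.injective h1
  have hgcast : ∀ z, ((g z : ℕ) : ZMod M) = φ.symm z := by
    intro z
    simp [hg]
  refine ⟨P.image g, ?_, ?_, ?_⟩
  · intro x hx
    obtain ⟨z, -, rfl⟩ := Finset.mem_image.1 hx
    exact ZMod.val_lt _
  · intro a d hd hall
    have hi : ∀ i < 4, ∃ z ∈ P, g z = a + i * d := by
      intro i hi
      obtain ⟨z, hz, hzg⟩ := Finset.mem_image.1 (hall i hi)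
      exact ⟨z, hz, hzg⟩
    obtain ⟨z0, hz0, g0⟩ := hi 0 (by norm_num)
    obtain ⟨z1, hz1, g1⟩ := hi 1 (by norm_num)
    obtain ⟨z2, hz2, g2⟩ := hi 2 (by norm_num)
    obtain ⟨z3, hz3, g3⟩ := hi 3 (by norm_num)
    -- coordinates
    set α : ∀ j, ZMod (m j) := φ ((a : ℕ) : ZMod M) with hα
    set β : ∀ j, ZMod (m j) := φ ((d : ℕ) : ZMod M) with hβ
    have key : ∀ (z : ∀ j, ZMod (m j)) (i : ℕ), g z = a + i * d → z = α + (i : ∀ j, ZMod (m j)) * β := by
      intro z i h
      have h1 := hgcast z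
      rw [h] at h1
      have h2 : z = φ (((a + i * d : ℕ)) : ZMod M) := by
        rw [h1]; simp
      rw [h2, hα, hβ]
      push_cast
      simp only [map_add, map_mul, map_natCast]
    have e0 := key z0 0 g0
    have e1 := key z1 1 g1
    have e2 := key z2 2 g2
    have e3 := key z3 3 g3
    have hm : ∀ z ∈ P, (∀ j, z j ∈ T j) ∧ Φ z + (n * R : ℕ) = r := by
      intro z hz
      obtain ⟨h1, h2⟩ := Finset.mem_filter.1 hz
      exact ⟨fun j => Fintype.mem_piFinset.1 h1 j, h2⟩
    have co0 : ∀ j, z0 j = α j := by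
      intro j; rw [e0]; simp
    have co1 : ∀ j, z1 j = α j + β j := by
      intro j; rw [e1]; simp
    have co2 : ∀ j, z2 j = α j + 2 * β j := by
      intro j; rw [e2]; simp
    have co3 : ∀ j, z3 j = α j + 3 * β j := by
      intro j; rw [e3]; simp
    have hc := fun j => hcert j (α j) (β j)
      (by rw [← co0]; exact (hm z0 hz0).1 j) (by rw [← co1]; exact (hm z1 hz1).1 j)
      (by rw [← co2]; exact (hm z2 hz2).1 j) (by rw [← co3]; exact (hm z3 hz3).1 j)
    have hsum : ∑ j, (F j (α j) + F j (α j + 3 * β j) - F j (α j + β j) - F j (α j + 2 * β j)) = 0 := by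
      have h0 := (hm z0 hz0).2
      have h1 := (hm z1 hz1).2
      have h2 := (hm z2 hz2).2
      have h3 := (hm z3 hz3).2
      have : Φ z0 + Φ z3 - Φ z1 - Φ z2 = 0 := by linarith
      simp only [hΦ, co0, co1, co2, co3] at this
      rw [← this]
      simp only [Finset.sum_sub_distrib, Finset.sum_add_distrib]
    have hzero := (Finset.sum_eq_zero_iff_of_nonneg (fun j _ => (hc j).1)).1 hsum
    have hβ0 : β = 0 := by
      funext j
      exact (hc j).2 (hzero j (mem_univ j))
    have hd0 : ((d : ℕ) : ZMod M) = 0 := by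
      have : φ ((d : ℕ) : ZMod M) = 0 := hβ0
      exact (map_eq_zero_iff φ φ.injective).1 this
    have hdvd : M ∣ d := (ZMod.natCast_eq_zero_iff d M).1 hd0
    have hlt : g z1 < M := ZMod.val_lt _
    rw [g1] at hlt
    have := Nat.le_of_dvd hd hdvd
    omega
  · rw [Finset.card_image_of_injective _ hginj]
    have h := hr
    rw [hScard] at h
    exact h

/-- Passing to a window of length `N`. -/
theorem window {M N : ℕ} (hN : 0 < N) (hNM : N ≤ M) {A : Finset ℕ} (hA : ∀ x ∈ A, x < M)
    (hfree : FourFree A) :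
    ∃ B : Finset ℕ, B ⊆ Finset.Icc 1 N ∧ FourFree B ∧
      ((A.card : ℝ) * N / (2 * M)) ≤ B.card := by
  classical
  set K : ℕ := M / N + 1 with hK
  have hK0 : 0 < K := Nat.succ_pos _
  have hmaps : ∀ x ∈ A, x / N ∈ Finset.range K := by
    intro x hx
    rw [Finset.mem_range]
    have := Nat.div_le_div_right (c := N) (hA x hx).le
    omega
  have hne : (Finset.range K).Nonempty := ⟨0, by simp [hK0]⟩
  have hKr : (0 : ℝ) < K := by exact_mod_cast hK0
  obtain ⟨k, -, hk⟩ := Finset.exists_le_card_fiber_of_nsmul_le_card_of_maps_to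
    (b := (A.card : ℝ) / K) hmaps hne (by
      rw [nsmul_eq_mul, card_range]
      field_simp
      exact le_refl _)
  set C := A.filter (fun x => x / N = k) with hC
  set h : ℕ → ℕ := fun x => x + 1 - k * N with hh
  have hCb : ∀ x ∈ C, k * N ≤ x ∧ x < k * N + N := by
    intro x hx
    have h1 := (Finset.mem_filter.1 hx).2
    have h2 := Nat.div_add_mod x N
    have h3 := Nat.mod_lt x hN
    rw [h1] at h2
    rw [mul_comm] at h2
    constructor
    · omega
    · omega
  have hinj : Set.InjOn h C := by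
    intro x hx y hy hxy
    have := hCb x hx
    have := hCb y hy
    simp only [hh] at hxy
    omega
  refine ⟨C.image h, ?_, ?_, ?_⟩
  · intro y hy
    obtain ⟨x, hx, rfl⟩ := Finset.mem_image.1 hy
    have := hCb x hx
    rw [Finset.mem_Icc]
    simp only [hh]
    omega
  · intro a d hd hall
    apply hfree (a + k * N - 1) d hd
    intro i hi
    obtain ⟨x, hx, hxy⟩ := Finset.mem_image.1 (hall i hi)
    have hb := hCb x hx
    have hx' : x = a + k * N - 1 + i * d := by
      simp only [hh] at hxy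
      have h0 := hall 0 (by norm_num)
      obtain ⟨x0, _, h0'⟩ := Finset.mem_image.1 h0
      have hb0 : 1 ≤ a := by
        have := hCb x0 ‹_›
        simp only [hh] at h0'
        omega
      omega
    rw [← hx']
    exact (Finset.mem_filter.1 hx).1
  · rw [Finset.card_image_of_injOn hinj]
    refine le_trans ?_ hk
    have hMr : (0 : ℝ) < M := by
      have : 0 < M := lt_of_lt_of_le hN hNM
      exact_mod_cast this
    have hNr : (0 : ℝ) < N := by exact_mod_cast hN
    have hKle : (K : ℝ) ≤ 2 * M / N := by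
      rw [le_div_iff₀ hNr]
      have h1 : M / N * N ≤ M := Nat.div_mul_le_self M N
      have h2 : K * N ≤ 2 * M := by
        rw [hK]
        nlinarith
      exact_mod_cast h2
    have hA0 : (0 : ℝ) ≤ A.card := by positivity
    calc (A.card : ℝ) * N / (2 * M) = (A.card : ℝ) / (2 * M / N) := by
          field_simp
      _ ≤ (A.card : ℝ) / K := by
          apply div_le_div_of_nonneg_left hA0 hKr hKle

end Vale.Agent.Lib.P057R4
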