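import Vale.Agent.Lib.P057R4.Core

namespace Vale.Agent.Lib.P057R4

open Finset

/-- The integer digit set: odd `y` with `|y| < p/3` and even `y` with `|y| < 2p/9`. -/
def InT (p y : ℤ) : Prop :=
  (y % 2 = 1 ∧ -p < 3 * y ∧ 3 * y < p) ∨ (y % 2 = 0 ∧ -(2 * p) < 9 * y ∧ 9 * y < 2 * p)

/-- The certificate: `y^2`, lowered by `p^2` on odd `y`. -/
def certF (p y : ℤ) : ℤ := y ^ 2 - p ^ 2 * (y % 2)

lemma InT.bound {p y : ℤ} (hp : 0 < p) (h : InT p y) : -p < 3 * y ∧ 3 * y < p := by
  rcases h with h | h <;> omega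

lemma InT.neg {p y : ℤ} (h : InT p y) : InT p (-y) := by
  rcases h with h | h
  · left; omega
  · right; omega

lemma certF_neg (p y : ℤ) : certF p (-y) = certF p y := by
  unfold certF
  have : (-y) % 2 = y % 2 := by omega
  rw [this]
  ring

/-- The case of a progression with one wrap-around at the middle step. -/
lemma wrap_case {p y0 y1 y2 y3 : ℤ} (hp : 0 < p) (hodd : p % 2 = 1)
    (h0 : InT p y0) (h1 : InT p y1) (h2 : InT p y2) (h3 : InT p y3)
    (e2 : y2 = 2 * y1 - y0 - p) (e3 : y3 = 3 * y1 - 2 * y0 - p) :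
    0 < certF p y0 + certF p y3 - certF p y1 - certF p y2 := by
  have p2 : y2 % 2 = (y0 + 1) % 2 := by omega
  have p3 : y3 % 2 = (y1 + 1) % 2 := by omega
  have c0 : y0 % 2 = 0 ∨ y0 % 2 = 1 := by omega
  have c1 : y1 % 2 = 0 ∨ y1 % 2 = 1 := by omega
  rcases c0 with c0 | c0 <;> rcases c1 with c1 | c1
  · -- both even: impossible
    exfalso
    unfold InT at h0 h1 h2 h3
    omega
  · -- the pattern `0110`
    have d2 : y2 % 2 = 1 := by omega
    have d3 : y3 % 2 = 0 := by omega
    unfold certF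
    rw [c0, c1, d2, d3, e2, e3]
    nlinarith [sq_nonneg (4 * (y1 - y0) - p), mul_pos hp hp]
  · exfalso
    unfold InT at h0 h1 h2 h3
    omega
  · exfalso
    unfold InT at h0 h1 h2 h3
    omega

/-- The digit certificate. -/
lemma digit_cert {p y0 y1 y2 y3 : ℤ} (hp : 0 < p) (hodd : p % 2 = 1)
    (h0 : InT p y0) (h1 : InT p y1) (h2 : InT p y2) (h3 : InT p y3)
    (e0 : p ∣ y0 - 2 * y1 + y2) (e1 : p ∣ y1 - 2 * y2 + y3) :
    0 ≤ certF p y0 + certF p y3 - certF p y1 - certF p y2 ∧
      (certF p y0 + certF p y3 - certF p y1 - certF p y2 = 0 → y1 = y0) := by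
  obtain ⟨w0, hw0⟩ := e0
  obtain ⟨w1, hw1⟩ := e1
  have b0 := h0.bound hp
  have b1 := h1.bound hp
  have b2 := h2.bound hp
  have b3 := h3.bound hp
  have w0u : w0 < 2 := by
    by_contra hc
    push Not at hc
    nlinarith
  have w0l : -2 < w0 := by
    by_contra hc
    push Not at hc
    nlinarith
  have w1u : w1 < 2 := by
    by_contra hc
    push Not at hc
    nlinarith
  have w1l : -2 < w1 := by
    by_contra hc
    push Not at hc
    nlinarith
  have cw0 : w0 = -1 ∨ w0 = 0 ∨ w0 = 1 := by omega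
  have cw1 : w1 = -1 ∨ w1 = 0 ∨ w1 = 1 := by omega
  rcases cw0 with rfl | rfl | rfl <;> rcases cw1 with rfl | rfl | rfl
  · exfalso; omega
  · exfalso; omega
  · -- wrap
    have := wrap_case hp hodd h0 h1 h2 h3 (by linarith) (by linarith)
    exact ⟨this.le, fun h => by omega⟩
  · exfalso; omega
  · -- true progression
    have e2 : y2 = 2 * y1 - y0 := by linarith
    have e3 : y3 = 3 * y1 - 2 * y0 := by linarith
    have p2 : y2 % 2 = y0 % 2 := by omega
    have p3 : y3 % 2 = y1 % 2 := by omega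
    have val : certF p y0 + certF p y3 - certF p y1 - certF p y2 = 4 * (y1 - y0) ^ 2 := by
      unfold certF
      rw [p2, p3, e2, e3]
      ring
    rw [val]
    refine ⟨by positivity, fun h => ?_⟩
    have : (y1 - y0) ^ 2 = 0 := by linarith
    have := pow_eq_zero_iff (by norm_num) |>.1 this
    linarith
  · exfalso; omega
  · -- wrap, negated
    have := wrap_case (y0 := -y0) (y1 := -y1) (y2 := -y2) (y3 := -y3) hp hodd h0.neg h1.neg
      h2.neg h3.neg (by linarith) (by linarith)
    rw [certF_neg, certF_neg, certF_neg, certF_neg] at this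
    exact ⟨this.le, fun h => by omega⟩
  · exfalso; omega
  · exfalso; omega

lemma certF_abs_le {p y : ℤ} (hp : 0 < p) (h : InT p y) : |certF p y| ≤ p ^ 2 := by
  have hb := h.bound hp
  have hsq : y ^ 2 ≤ p ^ 2 := by
    have h3 : (3 * y) ^ 2 ≤ p ^ 2 := by
      apply sq_le_sq'  <;> omega
    nlinarith [sq_nonneg y]
  have hm : y % 2 = 0 ∨ y % 2 = 1 := by omega
  unfold certF
  rw [abs_le]
  rcases hm with hm | hm <;> rw [hm] <;> constructor <;> nlinarith [sq_nonneg y, sq_nonneg p]

section ZModDigits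

variable (p : ℕ) [NeZero p]

open Classical in
/-- The digit set in `ZMod p`. -/
noncomputable def digitSet : Finset (ZMod p) :=
  Finset.univ.filter fun z => InT (p : ℤ) z.valMinAbs

/-- The certificate on `ZMod p`. -/
def digitF (z : ZMod p) : ℤ := certF (p : ℤ) z.valMinAbs

lemma digitF_abs_le {z : ZMod p} (hz : z ∈ digitSet p) : |digitF p z| ≤ (p : ℤ) ^ 2 := by
  have hp : (0 : ℤ) < p := by exact_mod_cast NeZero.pos p
  classical
  have : InT (p : ℤ) z.valMinAbs := by
    simpa [digitSet] using hz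
  exact certF_abs_le hp this

lemma digit_cert_zmod (hodd : p % 2 = 1) (a b : ZMod p) (h0 : a ∈ digitSet p)
    (h1 : a + b ∈ digitSet p) (h2 : a + 2 * b ∈ digitSet p) (h3 : a + 3 * b ∈ digitSet p) :
    0 ≤ digitF p a + digitF p (a + 3 * b) - digitF p (a + b) - digitF p (a + 2 * b) ∧
      (digitF p a + digitF p (a + 3 * b) - digitF p (a + b) - digitF p (a + 2 * b) = 0 →
        b = 0) := by
  classical
  have hp : (0 : ℤ) < p := by exact_mod_cast NeZero.pos p
  have hodd' : (p : ℤ) % 2 = 1 := by omega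
  have m0 : InT (p : ℤ) a.valMinAbs := by simpa [digitSet] using h0
  have m1 : InT (p : ℤ) (a + b).valMinAbs := by simpa [digitSet] using h1
  have m2 : InT (p : ℤ) (a + 2 * b).valMinAbs := by simpa [digitSet] using h2
  have m3 : InT (p : ℤ) (a + 3 * b).valMinAbs := by simpa [digitSet] using h3
  have d0 : (p : ℤ) ∣ a.valMinAbs - 2 * (a + b).valMinAbs + (a + 2 * b).valMinAbs := by
    rw [← ZMod.intCast_zmod_eq_zero_iff_dvd]
    push_cast
    ring
  have d1 : (p : ℤ) ∣ (a + b).valMinAbs - 2 * (a + 2 * b).valMinAbs + (a + 3 * b).valMinAbs := by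
    rw [← ZMod.intCast_zmod_eq_zero_iff_dvd]
    push_cast
    ring
  obtain ⟨c1, c2⟩ := digit_cert hp hodd' m0 m1 m2 m3 d0 d1
  refine ⟨c1, fun h => ?_⟩
  have e := c2 h
  have e' : a + b = a := ZMod.injective_valMinAbs e
  simpa using e'

/-- The integers of the digit set. -/
lemma card_digitSet (hp5 : 1 ≤ p) : 5 * p ≤ 9 * (digitSet p).card + 18 := by
  classical
  set q : ℤ := (p : ℤ) with hq
  have hq1 : (1 : ℤ) ≤ q := by
    rw [hq]; exact_mod_cast hp5
  set τ : ℤ := (q - 1) / 9 with hτ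
  set σ : ℤ := (q - 4) / 6 with hσ
  set E : Finset ℤ := (Finset.Icc (-τ) τ).image (fun t => 2 * t) with hE
  set O : Finset ℤ := (Finset.Icc (-σ - 1) σ).image (fun t => 2 * t + 1) with hO
  have hEc : (E.card : ℤ) = 2 * τ + 1 := by
    rw [hE, Finset.card_image_of_injective _ (by intro a b h; simp only at h; omega), Int.card_Icc]
    omega
  have hOc : (O.card : ℤ) = max (2 * σ + 2) 0 := by
    rw [hO, Finset.card_image_of_injective _ (by intro a b h; simp only at h; omega), Int.card_Icc]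
    omega
  have hdisj : Disjoint E O := by
    rw [Finset.disjoint_left]
    intro x hx hx'
    obtain ⟨a, _, rfl⟩ := Finset.mem_image.1 hx
    obtain ⟨b, _, hb⟩ := Finset.mem_image.1 hx'
    omega
  have hmem : ∀ y ∈ E ∪ O, InT q y := by
    intro y hy
    rcases Finset.mem_union.1 hy with hy | hy
    · obtain ⟨t, ht, rfl⟩ := Finset.mem_image.1 hy
      rw [Finset.mem_Icc] at ht
      right
      omega
    · obtain ⟨t, ht, rfl⟩ := Finset.mem_image.1 hy
      rw [Finset.mem_Icc] at ht
      left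
      omega
  have hmaps : ∀ y ∈ E ∪ O, ((y : ZMod p)) ∈ digitSet p := by
    intro y hy
    have hT := hmem y hy
    have hb := hT.bound (by omega)
    have hval : ((y : ZMod p)).valMinAbs = y := by
      rw [ZMod.valMinAbs_spec]
      refine ⟨rfl, ?_, ?_⟩ <;> omega
    simp only [digitSet, Finset.mem_filter, Finset.mem_univ, true_and]
    rw [hval]
    exact hT
  have hinj : Set.InjOn (fun y : ℤ => (y : ZMod p)) (E ∪ O : Finset ℤ) := by
    intro y hy y' hy' h
    have hb := (hmem y hy).bound (by omega)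
    have hb' := (hmem y' hy').bound (by omega)
    have e1 : ((y : ZMod p)).valMinAbs = y := by
      rw [ZMod.valMinAbs_spec]
      refine ⟨rfl, ?_, ?_⟩ <;> omega
    have e2 : ((y' : ZMod p)).valMinAbs = y' := by
      rw [ZMod.valMinAbs_spec]
      refine ⟨rfl, ?_, ?_⟩ <;> omega
    simp only at h
    rw [← e1, ← e2, h]
  have hcard := Finset.card_le_card_of_injOn _ hmaps hinj
  rw [Finset.card_union_of_disjoint hdisj] at hcard
  have h1 : ((E.card + O.card : ℕ) : ℤ) ≤ ((digitSet p).card : ℤ) := by exact_mod_cast hcard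
  push_cast at h1
  rw [hEc, hOc] at h1
  omega

end ZModDigits

end Vale.Agent.Lib.P057R4
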