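import Vale.Agent.Lib.P057R4.Step

namespace Vale.Agent.Lib.P057R4

open Real Filter

lemma logb_two_nonneg' {x : ℝ} (hx : 1 ≤ x) : 0 ≤ logb 2 x :=
  Real.logb_nonneg (by norm_num) hx

lemma count_lemma {n s ξ η : ℕ} (hξ : 1 ≤ ξ) (hs : s + η = ξ) (h2ξ : 2 * ξ ≤ 2 ^ η)
    (hbig : 2 * (n * ξ + 1) < 2 ^ ξ) : n + 2 ^ s ≤ Nat.primeCounting (2 ^ ξ) := by
  by_contra hcon
  push Not at hcon
  have h1 := two_pow_le_primeCounting ξ hξ
  have h3 : Nat.primeCounting (2 ^ ξ) + 1 ≤ n + 2 ^ s := hcon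
  have h4 : (Nat.primeCounting (2 ^ ξ) + 1) * ξ ≤ (n + 2 ^ s) * ξ :=
    Nat.mul_le_mul_right _ h3
  rw [add_mul, add_mul, one_mul] at h4
  have h7 : 2 ^ s * (2 * ξ) ≤ 2 ^ ξ := by
    rw [← hs, pow_add]
    exact Nat.mul_le_mul_left _ (by rwa [hs])
  have h8 : 2 ^ s * (2 * ξ) = 2 * (2 ^ s * ξ) := by ring
  rw [h8] at h7
  rw [mul_add, mul_one] at hbig
  have e : 2 * (n * ξ) = 2 * (n * ξ) := rfl
  omega

/-- The deterministic step: explicit real parameters. -/
theorem real_step {N : ℕ} (hN : 1 ≤ N) {κ W L δ B : ℝ}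
    (hκ : κ = logb 2 (9 / 5)) (hκ1 : 1 / 2 ≤ κ) (hW : 1 ≤ W) (hL : L = logb 2 N)
    (hWL : 2 * W ^ 2 = κ * L) (hδ0 : 0 < δ) (hδ : δ ≤ 1 / 2)
    (H1 : logb 2 (2 * W + 2) + 1 ≤ δ * W)
    (H2 : 2 * ((8 * W + 1) * (W + 1) + W + 2) ≤ (2 : ℝ) ^ W)
    (H3 : 8 * (8 * W + 1) ≤ (2 : ℝ) ^ (W / 2))
    (H4 : 2 * W / (1 - δ) + 2 * W + κ + 4 + logb 2 (24 * W + 3) ≤ B) :
    ∃ A : Finset ℕ, A ⊆ Finset.Icc 1 N ∧ FourFree A ∧ (N : ℝ) * 2 ^ (-B) ≤ A.card := by
  have hκ0 : 0 < κ := by linarith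
  have hW0 : 0 < W := by linarith
  have hNr : (0 : ℝ) < N := by exact_mod_cast hN
  have hL0 : 0 < L := by
    have : 0 < κ * L := by
      rw [← hWL]; positivity
    exact (pos_iff_pos_of_mul_pos this).1 hκ0
  have hd1 : 0 < 1 - δ := by linarith
  -- the parameters
  set ξ : ℕ := ⌈W⌉₊ with hξ
  have hξ1 : W ≤ ξ := Nat.le_ceil _
  have hξ2 : (ξ : ℝ) < W + 1 := Nat.ceil_lt_add_one hW0.le
  have hξpos : 1 ≤ ξ := by
    have : 0 < ξ := Nat.ceil_pos.2 hW0
    omega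
  have hlog0 : 0 ≤ logb 2 (2 * W + 2) := logb_two_nonneg' (by linarith)
  set η : ℕ := ⌈logb 2 (2 * W + 2)⌉₊ with hη
  have hη1 : logb 2 (2 * W + 2) ≤ η := Nat.le_ceil _
  have hη2 : (η : ℝ) < logb 2 (2 * W + 2) + 1 := Nat.ceil_lt_add_one hlog0
  have hη3 : (η : ℝ) ≤ δ * W := by linarith
  have hδW : δ * W ≤ W / 2 := by nlinarith
  have hη4 : 2 * W + 2 ≤ (2 : ℝ) ^ η := by
    have := (Real.logb_le_iff_le_rpow (b := 2) (by norm_num) (by linarith)).1 hη1
    rwa [Real.rpow_natCast] at this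
  have hηξ : η ≤ ξ := by
    have : (η : ℝ) ≤ ξ := by linarith
    exact_mod_cast this
  set s : ℕ := ξ - η with hs
  have hsr : (s : ℝ) = ξ - η := by
    rw [hs]; push_cast [hηξ]; ring
  have hs1 : W / 2 ≤ s := by
    rw [hsr]; linarith
  have hs2 : (1 - δ) * W ≤ s := by
    rw [hsr]; linarith
  set y : ℝ := L / ((1 - δ) * W) with hy
  have hy0 : 0 < y := by positivity
  set n : ℕ := ⌈y⌉₊ with hn
  have hn1 : y ≤ n := Nat.le_ceil _
  have hn2 : (n : ℝ) < y + 1 := Nat.ceil_lt_add_one hy0.le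
  have hnpos : 1 ≤ n := by
    have : 0 < n := Nat.ceil_pos.2 hy0
    omega
  have hnr : (1 : ℝ) ≤ n := by exact_mod_cast hnpos
  have hyκ : y * κ = 2 * W / (1 - δ) := by
    rw [hy]
    have : L * κ = 2 * W ^ 2 := by rw [hWL]; ring
    field_simp
    linarith
  have hy8 : y ≤ 8 * W := by
    have h1 : y * κ ≤ 4 * W := by
      rw [hyκ, div_le_iff₀ hd1]
      have : 4 * W * (1 / 2) ≤ 4 * W * (1 - δ) :=
        mul_le_mul_of_nonneg_left (by linarith) (by linarith)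
      linarith
    have h2 : y * (1 / 2) ≤ y * κ := mul_le_mul_of_nonneg_left hκ1 hy0.le
    linarith
  have hn8 : (n : ℝ) ≤ 8 * W + 1 := by linarith
  have hnκ : (n : ℝ) * κ ≤ 2 * W / (1 - δ) + κ := by
    have : (n : ℝ) * κ ≤ (y + 1) * κ := mul_le_mul_of_nonneg_right hn2.le hκ0.le
    rw [add_mul, hyκ, one_mul] at this
    exact this
  have hsn : L ≤ s * n := by
    have h1 : (1 - δ) * W * y = L := by
      rw [hy]
      field_simp
    have h2 : (1 - δ) * W * y ≤ s * n := by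
      apply mul_le_mul hs2 hn1 hy0.le (by positivity)
    linarith
  -- the primes
  have hxpow : (2 : ℝ) ^ W ≤ ((2 ^ ξ : ℕ) : ℝ) := by
    push_cast
    rw [← Real.rpow_natCast]
    exact Real.rpow_le_rpow_of_exponent_le (by norm_num) hξ1
  have h2ξ : 2 * ξ ≤ 2 ^ η := by
    have : ((2 * ξ : ℕ) : ℝ) ≤ ((2 ^ η : ℕ) : ℝ) := by
      push_cast
      linarith
    exact_mod_cast this
  have hbig : 2 * (n * ξ + 1) < 2 ^ ξ := by
    have h8 : (n : ℝ) * ξ ≤ (8 * W + 1) * (W + 1) := by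
      apply mul_le_mul hn8 hξ2.le (by positivity) (by positivity)
    have h9 : ((2 * (n * ξ + 1) : ℕ) : ℝ) < ((2 ^ ξ : ℕ) : ℝ) := by
      push_cast at hxpow ⊢
      linarith
    exact_mod_cast h9
  have hcount : n + 2 ^ s ≤ Nat.primeCounting (2 ^ ξ) :=
    count_lemma hξpos (by omega) h2ξ hbig
  obtain ⟨p, hinj, hp⟩ := exists_primes hcount
  have h8n : ∀ j, 8 * n ≤ p j := by
    intro j
    have h1 : (8 : ℝ) * n ≤ ((2 ^ s : ℕ) : ℝ) := by
      push_cast
      calc (8 : ℝ) * n ≤ 8 * (8 * W + 1) := by linarith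
        _ ≤ 2 ^ (W / 2) := H3
        _ ≤ 2 ^ (s : ℝ) := Real.rpow_le_rpow_of_exponent_le (by norm_num) hs1
        _ = 2 ^ s := Real.rpow_natCast _ _
    have h2 : 8 * n ≤ 2 ^ s := by exact_mod_cast h1
    exact h2.trans (hp j).2.1.le
  have hNM : N ≤ ∏ j, p j := by
    have h1 : ((N : ℝ)) ≤ ((2 ^ (s * n) : ℕ) : ℝ) := by
      have e : (N : ℝ) = (2 : ℝ) ^ L := by
        rw [hL, Real.rpow_logb (by norm_num) (by norm_num) hNr]
      rw [e]
      push_cast
      rw [← Real.rpow_natCast]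
      apply Real.rpow_le_rpow_of_exponent_le (by norm_num)
      push_cast
      exact hsn
    have h2 : N ≤ 2 ^ (s * n) := by exact_mod_cast h1
    refine h2.trans ?_
    have h3 : ∏ _j : Fin n, 2 ^ s ≤ ∏ j, p j :=
      Finset.prod_le_prod' (fun j _ => (hp j).2.1.le)
    simp only [Finset.prod_const, Finset.card_univ, Fintype.card_fin] at h3
    rwa [pow_mul]
  obtain ⟨A, hA1, hA2, hA3⟩ := prime_step hnpos (by omega) p hinj
    (fun j => ⟨(hp j).1, h8n j, (hp j).2.2⟩) hNM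
  refine ⟨A, hA1, hA2, le_trans ?_ hA3⟩
  -- the numerics
  set x : ℕ := 2 ^ ξ with hx
  have hxr : (x : ℝ) = 2 ^ ξ := by rw [hx]; push_cast; rfl
  have hx1 : (1 : ℝ) ≤ (x : ℝ) ^ 2 := by
    rw [hxr]
    exact one_le_pow₀ (one_le_pow₀ (by norm_num))
  set D : ℝ := 2 * n * (x : ℝ) ^ 2 + 1 with hD
  have hDpos : 0 < D := by positivity
  set Rr : ℝ := (9 / 5 : ℝ) ^ n * (4 * D) with hRr
  have hRrpos : 0 < Rr := by positivity
  have hD3 : D ≤ (24 * W + 3) * ((2 : ℝ) ^ ξ) ^ 2 := by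
    have h1 : D ≤ 3 * n * (x : ℝ) ^ 2 := by
      rw [hD]
      have h0 := mul_le_mul hnr hx1 (by norm_num) (by positivity)
      have e : 3 * (n : ℝ) * (x : ℝ) ^ 2 = 2 * n * (x : ℝ) ^ 2 + n * (x : ℝ) ^ 2 := by ring
      rw [e]
      linarith
    have h2 : 3 * (n : ℝ) * (x : ℝ) ^ 2 ≤ (24 * W + 3) * (x : ℝ) ^ 2 := by
      apply mul_le_mul_of_nonneg_right _ (by positivity)
      linarith
    rw [hxr] at h1 h2
    linarith
  have hlogR : logb 2 Rr ≤ B := by
    have e1 : logb 2 Rr = n * κ + 2 + logb 2 D := by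
      rw [hRr, Real.logb_mul (by positivity) (by positivity),
        Real.logb_mul (by norm_num) hDpos.ne', Real.logb_pow, ← hκ]
      have e2 : logb 2 (4 : ℝ) = 2 := by
        rw [show (4 : ℝ) = 2 ^ (2 : ℕ) by norm_num, Real.logb_pow,
          Real.logb_self_eq_one (by norm_num)]
        norm_num
      rw [e2]
      ring
    have e3 : logb 2 D ≤ logb 2 (24 * W + 3) + 2 * ξ := by
      have h1 := Real.logb_le_logb_of_le (b := 2) (by norm_num) hDpos hD3
      rw [Real.logb_mul (by positivity) (by positivity), Real.logb_pow, Real.logb_pow,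
        Real.logb_self_eq_one (by norm_num)] at h1
      push_cast at h1
      linarith
    rw [e1]
    linarith
  have hRle : Rr ≤ 2 ^ B := (Real.logb_le_iff_le_rpow (by norm_num) hRrpos).1 hlogR
  have h2B : (0 : ℝ) < 2 ^ B := by positivity
  rw [Real.rpow_neg (by norm_num)]
  have e5 : (N : ℝ) * (5 / 9 : ℝ) ^ n / (4 * D) = N / Rr := by
    rw [hRr]
    have : ((9 : ℝ) / 5) ^ n = 1 / (5 / 9 : ℝ) ^ n := by
      rw [← one_div_pow]
      norm_num
    rw [this]
    field_simp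
  rw [e5, ← div_eq_mul_inv]
  exact div_le_div_of_nonneg_left hNr.le hRrpos hRle

lemma log_small (a b δ : ℝ) (ha : 0 < a) (hδ : 0 < δ) :
    ∀ᶠ W : ℝ in atTop, logb 2 (a * W + b) ≤ δ * W := by
  have hlog2 : 0 < Real.log 2 := Real.log_pos (by norm_num)
  have h1 := Real.isLittleO_log_id_atTop
  have h2 : Tendsto (fun W : ℝ => a * W + b) atTop atTop :=
    tendsto_atTop_add_const_right _ _ (tendsto_id.const_mul_atTop ha)
  have hδ' : 0 < δ * Real.log 2 / (2 * a) := by positivity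
  have h3 := h1.def hδ'
  have h4 := h2.eventually h3
  filter_upwards [h4, eventually_ge_atTop (|b| / a), eventually_gt_atTop 0] with W hW hW1 hW0
  rw [div_le_iff₀ ha] at hW1
  have hb : b ≤ W * a := (le_abs_self b).trans hW1
  have hx : 0 ≤ a * W + b := by
    have := neg_abs_le b
    nlinarith
  simp only [id, Real.norm_eq_abs, abs_of_nonneg hx] at hW
  have h5 : Real.log (a * W + b) ≤ δ * Real.log 2 / (2 * a) * (a * W + b) :=
    (le_abs_self _).trans hW
  rw [Real.logb, div_le_iff₀ hlog2]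
  have h6 : δ * Real.log 2 / (2 * a) * (a * W + b) ≤ δ * Real.log 2 / (2 * a) * (2 * (a * W)) :=
    mul_le_mul_of_nonneg_left (by nlinarith) hδ'.le
  have h7 : δ * Real.log 2 / (2 * a) * (2 * (a * W)) = δ * W * Real.log 2 := by
    field_simp
  linarith

lemma eventually_le_exp (a b : ℝ) (ha : 0 < a) (hb : 0 < b) :
    ∀ᶠ W : ℝ in atTop, a * W + b ≤ (2 : ℝ) ^ (W / 2) := by
  filter_upwards [log_small a b (1 / 2) ha (by norm_num), eventually_gt_atTop 0] with W hW hW0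
  have hpos : 0 < a * W + b := by positivity
  have := (Real.logb_le_iff_le_rpow (b := 2) (by norm_num) hpos).1 hW
  convert this using 2
  ring

/-- The main lower bound for four-term progressions. -/
theorem main_bound (c : ℝ) (hc : 2 * √(2 * logb 2 (9 / 5)) < c) :
    ∃ N₀ : ℕ, ∀ N : ℕ, N₀ ≤ N → ∃ A : Finset ℕ, A ⊆ Finset.Icc 1 N ∧
      (∀ a d : ℕ, 0 < d → ¬ ∀ i < 4, a + i * d ∈ A) ∧
      (N : ℝ) * 2 ^ (-(c * √(logb 2 N))) ≤ A.card := by
  set κ : ℝ := logb 2 (9 / 5) with hκ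
  have hκ1 : 1 / 2 ≤ κ := by
    have h1 : logb 2 (2 : ℝ) ≤ logb 2 ((9 / 5 : ℝ) ^ 2) :=
      Real.logb_le_logb_of_le (by norm_num) (by norm_num) (by norm_num)
    rw [Real.logb_self_eq_one (by norm_num), Real.logb_pow] at h1
    push_cast at h1
    rw [← hκ] at h1
    linarith
  have hκ0 : 0 < κ := by linarith
  set v : ℝ := √(κ / 2) with hv
  have hv0 : 0 < v := Real.sqrt_pos.2 (by positivity)
  have hv2 : v ^ 2 = κ / 2 := Real.sq_sqrt (by positivity)
  have h4v : 2 * √(2 * κ) = 4 * v := by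
    have : 2 * κ = (2 * v) ^ 2 := by rw [mul_pow, hv2]; ring
    rw [this, Real.sqrt_sq (by positivity)]
    ring
  rw [h4v] at hc
  set ε : ℝ := c - 4 * v with hε
  have hε0 : 0 < ε := by linarith
  set δ : ℝ := min (1 / 2) (ε / (8 * v)) with hδ
  have hδ0 : 0 < δ := lt_min (by norm_num) (by positivity)
  have hδ1 : δ ≤ 1 / 2 := min_le_left _ _
  have hδ2 : δ ≤ ε / (8 * v) := min_le_right _ _
  have hu : Tendsto (fun N : ℕ => √(logb 2 (N : ℝ))) atTop atTop := by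
    apply Real.tendsto_sqrt_atTop.comp
    exact (Real.tendsto_logb_atTop (by norm_num)).comp tendsto_natCast_atTop_atTop
  have hWt : Tendsto (fun N : ℕ => v * √(logb 2 (N : ℝ))) atTop atTop :=
    hu.const_mul_atTop hv0
  have hsmall : 0 < ε / (2 * v) := by positivity
  have E1 := hWt.eventually (log_small 2 2 (δ / 2) (by norm_num) (by positivity))
  have E2 := hWt.eventually (eventually_le_exp 8 8 (by norm_num) (by norm_num))
  have E3 := hWt.eventually (eventually_le_exp 64 8 (by norm_num) (by norm_num))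
  have E4 := hWt.eventually (log_small 24 3 (ε / (2 * v) / 2) (by norm_num) (by positivity))
  have E5 := hWt.eventually (eventually_ge_atTop (max 4 (max (2 / δ) ((κ + 4) / (ε / (2 * v) / 2)))))
  have E6 : ∀ᶠ N : ℕ in atTop, 1 ≤ N := eventually_ge_atTop 1
  obtain ⟨N₀, hN₀⟩ := eventually_atTop.1 (E1.and (E2.and (E3.and (E4.and (E5.and E6)))))
  refine ⟨N₀, fun N hN => ?_⟩
  obtain ⟨e1, e2, e3, e4, e5, e6⟩ := hN₀ N hN
  set L : ℝ := logb 2 (N : ℝ) with hL
  have hL0 : 0 ≤ L := logb_two_nonneg' (by exact_mod_cast e6)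
  set u : ℝ := √L with hu'
  have hu2 : u ^ 2 = L := Real.sq_sqrt hL0
  set W : ℝ := v * u with hW
  have hWL : 2 * W ^ 2 = κ * L := by
    rw [hW, mul_pow, hv2, hu2]
    ring
  have hW4 : 4 ≤ W := le_trans (le_max_left _ _) e5
  have hW5 : 2 / δ ≤ W := le_trans (le_trans (le_max_left _ _) (le_max_right _ _)) e5
  have hW6 : (κ + 4) / (ε / (2 * v) / 2) ≤ W :=
    le_trans (le_trans (le_max_right _ _) (le_max_right _ _)) e5
  have hpow : (2 : ℝ) ^ W = (2 : ℝ) ^ (W / 2) * (2 : ℝ) ^ (W / 2) := by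
    rw [← Real.rpow_add (by norm_num)]
    congr 1
    ring
  obtain ⟨A, hA1, hA2, hA3⟩ := real_step (κ := κ) (W := W) (L := L) (δ := δ) (B := c * u) e6 hκ
    hκ1 (by linarith) hL hWL hδ0 hδ1
    (by
      have h1 : 2 ≤ δ * W := by
        rw [div_le_iff₀ hδ0] at hW5
        linarith
      have h2 : logb 2 (2 * W + 2) ≤ δ / 2 * W := e1
      nlinarith)
    (by
      have h1 : 8 * W + 8 ≤ (2 : ℝ) ^ (W / 2) := e2
      rw [hpow]
      have h2 : 2 * ((8 * W + 1) * (W + 1) + W + 2) ≤ (8 * W + 8) * (8 * W + 8) := by nlinarith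
      have h3 : (8 * W + 8) * (8 * W + 8) ≤ (2 : ℝ) ^ (W / 2) * (2 : ℝ) ^ (W / 2) :=
        mul_le_mul h1 h1 (by positivity) (by positivity)
      linarith)
    (by
      have h1 : 64 * W + 8 ≤ (2 : ℝ) ^ (W / 2) := e3
      linarith)
    (by
      have hcu : c * u = 4 * W + ε / v * W := by
        rw [hW, hε]
        field_simp
        ring
      rw [hcu]
      have h1 : 2 * W / (1 - δ) ≤ 2 * W + 4 * δ * W := by
        rw [div_le_iff₀ (by linarith)]
        nlinarith [mul_pos hδ0 (by linarith : 0 < W), mul_nonneg (mul_nonneg hδ0.le hδ0.le) (by linarith : 0 ≤ W)]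
      have h2 : 4 * δ * W ≤ ε / (2 * v) * W := by
        apply mul_le_mul_of_nonneg_right _ (by linarith)
        have : 4 * (ε / (8 * v)) = ε / (2 * v) := by
          field_simp
          ring
        linarith
      have h3 : logb 2 (24 * W + 3) ≤ ε / (2 * v) / 2 * W := e4
      have h4 : κ + 4 ≤ ε / (2 * v) / 2 * W := by
        rwa [div_le_iff₀ (by positivity), mul_comm] at hW6
      have h5 : ε / v * W = ε / (2 * v) * W + ε / (2 * v) * W := by
        field_simp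
        ring
      rw [h5]
      linarith)
  exact ⟨A, hA1, hA2, hA3⟩

end Vale.Agent.Lib.P057R4
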