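import Mathlib

namespace Vale.Agent.Lib.P057R4

open Finset Real

/-- Chebyshev's lower bound, at a power of two. -/
lemma two_pow_le_primeCounting (ξ : ℕ) (hξ : 1 ≤ ξ) :
    2 ^ ξ ≤ Nat.primeCounting (2 ^ ξ) * ξ + ξ + 1 := by
  have h := Chebyshev.pi_ge (2 ^ ξ)
  have hlog2 : 0 < Real.log 2 := Real.log_pos (by norm_num)
  have hlogn : Real.log ((2 ^ ξ : ℕ) : ℝ) = ξ * Real.log 2 := by
    push_cast
    rw [Real.log_pow]
  have hξr : (1 : ℝ) ≤ ξ := by exact_mod_cast hξ
  have hlogpos : 0 < Real.log ((2 ^ ξ : ℕ) : ℝ) := by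
    rw [hlogn]
    positivity
  rw [div_le_iff₀ hlogpos, hlogn] at h
  have h1 : Real.log (((2 ^ ξ : ℕ) : ℝ) + 1) ≤ (ξ + 1) * Real.log 2 := by
    have h2 : ((2 ^ ξ : ℕ) : ℝ) + 1 ≤ 2 ^ (ξ + 1) := by
      push_cast
      have : (1 : ℝ) ≤ 2 ^ ξ := one_le_pow₀ (by norm_num)
      rw [pow_succ]
      linarith
    have h3 := Real.log_le_log (by positivity) h2
    rw [Real.log_pow] at h3
    push_cast at h3 ⊢
    exact h3
  have h4 : ((2 ^ ξ : ℕ) : ℝ) * Real.log 2 ≤
      ((Nat.primeCounting (2 ^ ξ) * ξ + ξ + 1 : ℕ) : ℝ) * Real.log 2 := by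
    push_cast at h h1 ⊢
    nlinarith
  have h5 := le_of_mul_le_mul_right h4 hlog2
  exact_mod_cast h5

/-- A family of distinct primes in a range. -/
lemma exists_primes {a x n : ℕ} (h : n + a ≤ Nat.primeCounting x) :
    ∃ p : Fin n → ℕ, Function.Injective p ∧ ∀ j, (p j).Prime ∧ a < p j ∧ p j ≤ x := by
  classical
  set Q := (Nat.primesLE x).filter (fun p => a < p) with hQ
  have hcard : Nat.primeCounting x = (Nat.primesLE x).card :=
    (Nat.primesLE_card_eq_primeCounting x).symm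
  have hsplit : (Nat.primesLE x).card ≤ Q.card + a := by
    have h1 : Nat.primesLE x ⊆ Q ∪ Finset.Icc 1 a := by
      intro p hp
      have hp' := Nat.mem_primesLE.1 hp
      rw [Finset.mem_union, hQ, Finset.mem_filter, Finset.mem_Icc]
      by_cases hpa : a < p
      · exact Or.inl ⟨hp, hpa⟩
      · exact Or.inr ⟨hp'.2.one_lt.le, by omega⟩
    have h2 := Finset.card_le_card h1
    have h3 := Finset.card_union_le Q (Finset.Icc 1 a)
    simp only [Nat.card_Icc, add_tsub_cancel_right] at h3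
    omega
  have hn : n ≤ Q.card := by omega
  obtain ⟨R, hRQ, hRc⟩ := Finset.exists_subset_card_eq hn
  let e := R.equivFinOfCardEq hRc
  refine ⟨fun j => (e.symm j : ℕ), ?_, ?_⟩
  · intro i j hij
    exact e.symm.injective (Subtype.ext hij)
  · intro j
    have h1 := hRQ (e.symm j).2
    obtain ⟨h2, h3⟩ := Finset.mem_filter.1 h1
    have h4 := Nat.mem_primesLE.1 h2
    exact ⟨h4.2, h3, h4.1⟩

end Vale.Agent.Lib.P057R4
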