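import Vale.Agent.Lib.P057R4.Digit
import Vale.Agent.Lib.P057R4.Primes

namespace Vale.Agent.Lib.P057R4

open Finset

/-- The construction for a family of primes. -/
theorem prime_step {N n x : ℕ} (hn : 1 ≤ n) (hN : 0 < N) (p : Fin n → ℕ)
    (hinj : Function.Injective p) (hp : ∀ j, (p j).Prime ∧ 8 * n ≤ p j ∧ p j ≤ x)
    (hNM : N ≤ ∏ j, p j) :
    ∃ A : Finset ℕ, A ⊆ Finset.Icc 1 N ∧ FourFree A ∧
      (N : ℝ) * (5 / 9 : ℝ) ^ n / (4 * (2 * n * (x : ℝ) ^ 2 + 1)) ≤ A.card := by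
  classical
  have hne : ∀ j, NeZero (p j) := fun j => ⟨(hp j).1.ne_zero⟩
  have hcop : Pairwise (Function.onFun Nat.Coprime p) := by
    intro i j hij
    exact (Nat.coprime_primes (hp i).1 (hp j).1).2 (fun h => hij (hinj h))
  have hodd : ∀ j, p j % 2 = 1 := by
    intro j
    rcases (hp j).1.eq_two_or_odd with h | h
    · have := (hp j).2.1
      omega
    · exact h
  obtain ⟨A₀, hA₀, hfree, hcard⟩ := core p hcop (fun j => digitSet (p j)) (fun j => digitF (p j))
    (x ^ 2) (by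
      intro j z hz
      have h1 := digitF_abs_le (p j) hz
      have h2 : ((p j : ℤ)) ^ 2 ≤ ((x ^ 2 : ℕ) : ℤ) := by
        have := Nat.pow_le_pow_left (hp j).2.2 2
        exact_mod_cast this
      exact h1.trans h2) (fun j a b h0 h1 h2 h3 => digit_cert_zmod (p j) (hodd j) a b h0 h1 h2 h3)
  obtain ⟨A, hA1, hA2, hA3⟩ := window hN hNM hA₀ hfree
  refine ⟨A, hA1, hA2, le_trans ?_ hA3⟩
  set M : ℕ := ∏ j, p j with hM
  have hMr : (0 : ℝ) < M := by
    have : 0 < M := lt_of_lt_of_le hN hNM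
    exact_mod_cast this
  have hNr : (0 : ℝ) < N := by exact_mod_cast hN
  have hnr : (1 : ℝ) ≤ n := by exact_mod_cast hn
  -- the size of the digit sets
  have hdig : ∀ j, (5 / 9 : ℝ) * p j * (1 - 1 / (2 * n)) ≤ ((digitSet (p j)).card : ℝ) := by
    intro j
    have h1 := card_digitSet (p j) (hp j).1.one_lt.le
    have h1' : (5 : ℝ) * p j ≤ 9 * ((digitSet (p j)).card : ℝ) + 18 := by exact_mod_cast h1
    have h2 : (8 : ℝ) * n ≤ p j := by exact_mod_cast (hp j).2.1
    have h3 : (5 / 9 : ℝ) * p j * (1 / (2 * n)) ≥ 2 := by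
      have hn0 : (0 : ℝ) < 2 * n := by positivity
      have : (5 / 9 : ℝ) * p j * (1 / (2 * n)) = (5 * p j) / (18 * n) := by
        field_simp
        ring
      rw [this, ge_iff_le, le_div_iff₀ (by positivity)]
      nlinarith
    nlinarith
  have hprod : (5 / 9 : ℝ) ^ n * M * (1 / 2) ≤ ∏ j, ((digitSet (p j)).card : ℝ) := by
    have h1 : ∏ j : Fin n, ((5 / 9 : ℝ) * p j * (1 - 1 / (2 * n))) ≤
        ∏ j, ((digitSet (p j)).card : ℝ) := by
      apply Finset.prod_le_prod
      · intro j _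
        have : (1 : ℝ) / (2 * n) ≤ 1 := by
          rw [div_le_iff₀ (by positivity)]
          linarith
        have h5 : (0 : ℝ) ≤ 1 - 1 / (2 * n) := by linarith
        positivity
      · intro j _
        exact hdig j
    have h2 : ∏ j : Fin n, ((5 / 9 : ℝ) * p j * (1 - 1 / (2 * n)))
        = (5 / 9 : ℝ) ^ n * M * (1 - 1 / (2 * n)) ^ n := by
      rw [Finset.prod_mul_distrib, Finset.prod_mul_distrib]
      simp only [Finset.prod_const, Finset.card_univ, Fintype.card_fin]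
      rw [hM]
      push_cast
      ring
    rw [h2] at h1
    have h3 : (1 / 2 : ℝ) ≤ (1 - 1 / (2 * n)) ^ n := by
      have hb := one_add_mul_le_pow (a := -(1 / (2 * (n : ℝ)))) (by
        have : (1 : ℝ) / (2 * n) ≤ 1 := by
          rw [div_le_iff₀ (by positivity)]
          linarith
        linarith) n
      have e1 : (1 : ℝ) + n * (-(1 / (2 * (n : ℝ)))) = 1 / 2 := by
        field_simp
        ring
      rw [e1] at hb
      have e2 : (1 : ℝ) + -(1 / (2 * (n : ℝ))) = 1 - 1 / (2 * n) := by ring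
      rw [e2] at hb
      exact hb
    refine le_trans ?_ h1
    apply mul_le_mul_of_nonneg_left h3 (by positivity)
  have hR : (0 : ℝ) < 2 * n * ((x ^ 2 : ℕ) : ℝ) + 1 := by positivity
  have hstep : (5 / 9 : ℝ) ^ n * M * (1 / 2) / (2 * n * ((x ^ 2 : ℕ) : ℝ) + 1) ≤ A₀.card :=
    le_trans (div_le_div_of_nonneg_right hprod hR.le) hcard
  calc (N : ℝ) * (5 / 9 : ℝ) ^ n / (4 * (2 * n * (x : ℝ) ^ 2 + 1))
      = ((5 / 9 : ℝ) ^ n * M * (1 / 2) / (2 * n * ((x ^ 2 : ℕ) : ℝ) + 1)) * N / (2 * M) := by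
        push_cast
        field_simp
        ring
    _ ≤ (A₀.card : ℝ) * N / (2 * M) := by
        apply div_le_div_of_nonneg_right _ (by positivity)
        apply mul_le_mul_of_nonneg_right hstep hNr.le

end Vale.Agent.Lib.P057R4
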